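import Mathlib.Algebra.CharP.Lemmas
import Mathlib.Algebra.CharP.Frobenius
import Mathlib.Data.Fintype.Pigeonhole
import Mathlib.Algebra.Group.Subgroup.Basic
import Mathlib.Tactic.Abel
import Mathlib.Tactic.LinearCombination
import Mathlib.Tactic.Ring

/-!
# P261: infinitely many classes in `H¹`, abstract form (helper288)

`Q` is a domain of characteristic `p`, `G` acts on `Q` by ring homomorphisms `φ g`, `W` is a
crossed homomorphism to the units and `v` is a nonzero nonunit which is invariant up to units.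
The crossed homomorphisms `g ↦ W g * g(v^{-j}) - v^{-j}` with values in `Q` are pairwise not
cohomologous as soon as invariant fractions have no pole along `v`.
-/

namespace Vale.Agent.P261.R2.H288

/-- The cocycle relation. -/
theorem cocycle_of {Q : Type*} [CommRing Q] [IsDomain Q] {G : Type*} [Group G]
    (φ : G → Q →+* Q) (W : G → Q) (hφ : ∀ g h x, φ (g * h) x = φ g (φ h x))
    (hW : ∀ g h, W (g * h) = W g * φ g (W h)) {V : Q} (hV : ∀ g, φ g V ≠ 0) (hV0 : V ≠ 0)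
    {c : G → Q} (hc : ∀ g, (1 + V * c g) * φ g V = W g * V) (g h : G) :
    c (g * h) = c g + W g * φ g (c h) := by
  have h1 := hc (g * h)
  have h2 := hc g
  have h3 := congrArg (φ g) (hc h)
  rw [map_mul, map_add, map_one, map_mul, map_mul, ← hφ] at h3
  rw [hW] at h1
  have hne : V * φ g V * φ (g * h) V ≠ 0 := mul_ne_zero (mul_ne_zero hV0 (hV g)) (hV _)
  apply mul_left_cancel₀ hne
  linear_combination (φ g V) * h1 - (φ (g * h) V) * h2 - V * W g * h3

/-- If the difference of two of the classes is principal, there is a twisted-invariant fraction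
`a / V_k`. -/
theorem inv_of_principal {Q : Type*} [CommRing Q] [IsDomain Q]
    {x v b : Q} {W X1 X2 V1 V2 c1 c2 b' a a' : Q}
    (h1 : (1 + V1 * c1) * X1 = W * V1) (h2 : (1 + V2 * c2) * X2 = W * V2)
    (hb : c1 - c2 = W * b' - b) (hX2 : X2 ≠ 0) (hV2 : V2 ≠ 0)
    (hx : X1 = x * X2) (hv : V1 = v * V2) (ha : a = 1 - v - b * V1)
    (ha' : a' = 1 - x - b' * X1) : W * a' * V1 = a * X1 := by
  have hne : X2 * V2 ≠ 0 := mul_ne_zero hX2 hV2
  apply mul_left_cancel₀ hne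
  have e1 : V2 * a = V2 - V1 - b * V1 * V2 := by rw [ha, hv]; ring
  have e2 : X2 * a' = X2 - X1 - b' * X1 * X2 := by rw [ha', hx]; ring
  linear_combination (W * V1 * V2) * e2 - (X1 * X2) * e1 + (V1 * V2 * X1 * X2) * hb -
    (V2 * X2) * h1 + (V1 * X1) * h2

/-- The data. `v` is the invariant of the stratum, `t` the cocycle of `ω`, `w` the power of the
Teichmüller character, and `w t ^ r = 1 + v e`. -/
structure Data (Q : Type*) [CommRing Q] (G : Type*) [Group G] (p q N r : ℕ) where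
  φ : G → Q →+* Q
  t : G → Q
  w : G → Q
  e : G → Q
  v : Q
  W : G → Q
  hφ : ∀ g h x, φ (g * h) x = φ g (φ h x)
  hinj : ∀ g x, φ g x = 0 → x = 0
  hW : ∀ g h, W (g * h) = W g * φ g (W h)
  ht : ∀ g, t g ≠ 0
  hw : ∀ g, w g ^ (q - 1) = 1
  hv : ∀ g, φ g v * t g ^ N = v
  hv0 : v ≠ 0
  he : ∀ g, w g * t g ^ r = 1 + v * e g
  hfrac : ∀ a b : Q, b ≠ 0 → (∀ g, φ g a * b = a * φ g b) → ∃ c, a = c * b
  hvu : ¬ IsUnit v
  hN : 1 ≤ N
  hr : 1 ≤ r
  hq : 2 ≤ q

namespace Data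

variable {Q : Type*} [CommRing Q] [IsDomain Q] {G : Type*} [Group G] {p q N r : ℕ}
  (D : Data Q G p q N r)

omit [IsDomain Q] in
theorem w_pow (g : G) (k : ℕ) : D.w g ^ q ^ k = D.w g := by
  have h1 : D.w g ^ q = D.w g := by
    have h2 : (q - 1) + 1 = q := by have := D.hq; omega
    calc D.w g ^ q = D.w g ^ ((q - 1) + 1) := by rw [h2]
      _ = D.w g := by rw [pow_succ, D.hw, one_mul]
  induction k with
  | zero => rw [pow_zero, pow_one]
  | succ k ih => rw [pow_succ, pow_mul, ih, h1]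

/-- `s = w t ^ (r P) = 1 + v ^ P e ^ P`, `P = q ^ k` a power of `p`. -/
theorem s_eq [Fact p.Prime] [CharP Q p] {l k : ℕ} (hP : p ^ l = q ^ k) (g : G) :
    D.w g * D.t g ^ (r * q ^ k) = 1 + D.v ^ q ^ k * D.e g ^ q ^ k := by
  have h1 : D.w g * D.t g ^ (r * q ^ k) = (D.w g * D.t g ^ r) ^ q ^ k := by
    rw [mul_pow, ← pow_mul, D.w_pow]
  rw [h1, D.he, ← hP, add_pow_char_pow, one_pow, mul_pow]

/-- The relation for `V = v ^ j` and `c = v ^ (P - j) e ^ P`. -/
theorem rel [Fact p.Prime] [CharP Q p] {l k j : ℕ} (hP : p ^ l = q ^ k) (hj : j ≤ q ^ k) (g : G)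
    (hWj : D.W g * D.t g ^ (N * j) = D.w g * D.t g ^ (r * q ^ k)) :
    (1 + D.v ^ j * (D.v ^ (q ^ k - j) * D.e g ^ q ^ k)) * D.φ g (D.v ^ j) =
      D.W g * D.v ^ j := by
  have h1 : D.v ^ j * (D.v ^ (q ^ k - j) * D.e g ^ q ^ k) = D.v ^ q ^ k * D.e g ^ q ^ k := by
    rw [← mul_assoc, ← pow_add]
    congr 2
    omega
  have h2 : D.φ g (D.v ^ j) * D.t g ^ (N * j) = D.v ^ j := by
    rw [map_pow, pow_mul, ← mul_pow, D.hv]
  rw [h1, ← D.s_eq hP, ← hWj]
  calc D.W g * D.t g ^ (N * j) * D.φ g (D.v ^ j) =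
      D.W g * (D.φ g (D.v ^ j) * D.t g ^ (N * j)) := by ring
    _ = _ := by rw [h2]

omit [IsDomain Q] in
theorem φ_ne (g : G) {x : Q} (hx : x ≠ 0) : D.φ g x ≠ 0 := fun h => hx (D.hinj g x h)

/-- No nontrivial twisted-invariant fractions. -/
theorem no_inv (j k : ℕ)
    (hWj : ∀ g, D.W g * D.t g ^ (N * j) = D.w g * D.t g ^ (r * q ^ k)) (a z : Q)
    (ha : a = 1 - D.v * z) (h : ∀ g, D.W g * D.φ g a * D.v ^ j = a * D.φ g (D.v ^ j)) : False := by
  have hq := D.hq
  have hN := D.hN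
  have hr := D.hr
  have hqk : 1 ≤ q ^ k := Nat.one_le_pow _ _ (by omega)
  have hE : 1 ≤ r * q ^ k * (q - 1) :=
    Nat.mul_pos (Nat.mul_pos hr hqk) (by omega)
  -- `s φ(a) = a`
  have h1 : ∀ g, D.w g * D.t g ^ (r * q ^ k) * D.φ g a = a := by
    intro g
    have hne : D.φ g (D.v ^ j) ≠ 0 := D.φ_ne g (pow_ne_zero _ D.hv0)
    apply mul_right_cancel₀ hne
    have h2 : D.φ g (D.v ^ j) * D.t g ^ (N * j) = D.v ^ j := by
      rw [map_pow, pow_mul, ← mul_pow, D.hv]
    rw [← h g, ← hWj]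
    linear_combination (D.W g * D.φ g a) * h2
  obtain ⟨c, hc⟩ := D.hfrac (a ^ (N * (q - 1))) (D.v ^ (r * q ^ k * (q - 1)))
    (pow_ne_zero _ D.hv0) (by
      intro g
      have h2 : (D.w g * D.t g ^ (r * q ^ k) * D.φ g a) ^ (N * (q - 1)) = a ^ (N * (q - 1)) := by
        rw [h1 g]
      have h3 : D.w g ^ (N * (q - 1)) = 1 := by
        rw [mul_comm, pow_mul, D.hw, one_pow]
      have h4 : (D.w g * D.t g ^ (r * q ^ k) * D.φ g a) ^ (N * (q - 1)) =
          D.t g ^ (N * (r * q ^ k * (q - 1))) * D.φ g a ^ (N * (q - 1)) := by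
        rw [mul_pow, mul_pow, h3, one_mul, ← pow_mul]
        congr 2
        ring
      have h5 : D.φ g (D.v ^ (r * q ^ k * (q - 1))) * D.t g ^ (N * (r * q ^ k * (q - 1))) =
          D.v ^ (r * q ^ k * (q - 1)) := by
        rw [map_pow, pow_mul (D.t g), ← mul_pow, D.hv]
      rw [h4] at h2
      rw [map_pow (D.φ g) a]
      linear_combination (D.φ g (D.v ^ (r * q ^ k * (q - 1)))) * h2 -
        (D.φ g a ^ (N * (q - 1))) * h5)
  have hd1 : D.v ∣ a ^ (N * (q - 1)) := by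
    rw [hc]
    exact Dvd.dvd.mul_left (dvd_pow_self _ (by omega)) _
  have hd2 : D.v ∣ a ^ (N * (q - 1)) - 1 := by
    have h6 : a - 1 ∣ a ^ (N * (q - 1)) - 1 := sub_one_dvd_pow_sub_one _ _
    refine Dvd.dvd.trans ⟨-z, ?_⟩ h6
    rw [ha]; ring
  apply D.hvu
  have h7 := dvd_sub hd1 hd2
  rw [sub_sub_cancel] at h7
  exact isUnit_of_dvd_one h7

/-- Two of the classes are not cohomologous. -/
theorem not_cohom (j j' k : ℕ) (hj : j' < j) (c c' : G → Q)
    (hc : ∀ g, (1 + D.v ^ j * c g) * D.φ g (D.v ^ j) = D.W g * D.v ^ j)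
    (hc' : ∀ g, (1 + D.v ^ j' * c' g) * D.φ g (D.v ^ j') = D.W g * D.v ^ j')
    (hWj : ∀ g, D.W g * D.t g ^ (N * j) = D.w g * D.t g ^ (r * q ^ k))
    (b : Q) (hb : ∀ g, c g - c' g = D.W g * D.φ g b - b) : False := by
  have hpow : D.v ^ j = D.v ^ (j - j') * D.v ^ j' := by
    rw [← pow_add]
    congr 1
    omega
  have hpow2 : D.v ^ (j - j') = D.v * D.v ^ (j - j' - 1) := by
    rw [← pow_succ']
    congr 1
    omega
  have hpow3 : D.v ^ j = D.v * D.v ^ (j - 1) := by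
    rw [← pow_succ']
    congr 1
    omega
  refine D.no_inv j k hWj (1 - D.v ^ (j - j') - b * D.v ^ j)
    (D.v ^ (j - j' - 1) + b * D.v ^ (j - 1)) ?_ ?_
  · rw [hpow2, hpow3]; ring
  · intro g
    exact inv_of_principal (hc g) (hc' g) (hb g) (D.φ_ne g (pow_ne_zero _ D.hv0))
      (pow_ne_zero _ D.hv0) (by rw [hpow, map_mul]) hpow rfl
      (by rw [map_sub, map_sub, map_one, map_mul])

end Data

theorem dvd_pow_sub {Q : Type*} [CommRing Q] {v : Q} {q : ℕ} (hres : ∀ x : Q, v ∣ x ^ q - x)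
    (x : Q) (k : ℕ) : v ∣ x ^ q ^ k - x := by
  induction k with
  | zero => rw [pow_zero, pow_one, sub_self]; exact dvd_zero v
  | succ k ih =>
    have h1 : x ^ q ^ (k + 1) - x = ((x ^ q ^ k) ^ q - x ^ q ^ k) + (x ^ q ^ k - x) := by
      rw [pow_succ, pow_mul]; ring
    rw [h1]
    exact dvd_add (hres _) ih

theorem pow_dvd_sub {Q : Type*} [CommRing Q] {p : ℕ} [Fact p.Prime] [CharP Q p] {v : Q} {q : ℕ}
    (hres : ∀ x : Q, v ∣ x ^ q - x) {s l : ℕ} (hP : p ^ s = q ^ l) (x : Q) (k : ℕ) :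
    v ^ q ^ l ∣ x ^ q ^ (k + l) - x ^ q ^ l := by
  have h1 : x ^ q ^ (k + l) - x ^ q ^ l = (x ^ q ^ k - x) ^ q ^ l := by
    rw [← hP, sub_pow_char_pow, hP, pow_add, pow_mul]
  rw [h1]
  exact pow_dvd_pow_of_dvd (dvd_pow_sub hres x k) _

/-- Division of a crossed homomorphism. -/
theorem div_cocycle {Q : Type*} [CommRing Q] [IsDomain Q] {G : Type*} [Group G]
    (φ : G → Q →+* Q) (W W' : G → Q) {z : Q} (hz : z ≠ 0) (hW : ∀ g, W' g * φ g z = W g * z)
    {c d : G → Q} (hd : ∀ g, z * d g = c g)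
    (hc : ∀ g h, c (g * h) = c g + W' g * φ g (c h)) (g h : G) :
    d (g * h) = d g + W g * φ g (d h) := by
  apply mul_left_cancel₀ hz
  rw [hd, hc, ← hd g, ← hd h, map_mul]
  linear_combination (φ g (d h)) * hW g

/-- Pigeonhole: an infinite family of pairwise non-cohomologous elements. -/
theorem pigeon {A : Type*} [AddCommGroup A] (B : AddSubgroup A) (c : ℕ → A)
    (hc : ∀ k l, l < k → c k - c l ∉ B) (S : Set A) (hS : S.Finite) :
    ∃ k, ∀ s ∈ S, c k - s ∉ B := by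
  by_contra hcon
  push Not at hcon
  choose s hs hsB using hcon
  have : Finite S := hS
  obtain ⟨k, l, hkl, he⟩ := Finite.exists_ne_map_eq_of_infinite (fun k => (⟨s k, hs k⟩ : S))
  have he' : s k = s l := congrArg Subtype.val he
  have key : ∀ a b, s a = s b → c a - c b ∈ B := by
    intro a b hab
    have h1 := B.sub_mem (hsB a) (hsB b)
    rw [hab] at h1
    have h2 : c a - s b - (c b - s b) = c a - c b := by abel
    rwa [h2] at h1
  rcases lt_or_gt_of_ne hkl with h | h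
  · exact hc l k h (key l k he'.symm)
  · exact hc k l h (key k l he')

end Vale.Agent.P261.R2.H288
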